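import Vale.Agent.P181.FL2.Defs
import Vale.Agent.P181.H445.FL.Asm

set_option autoImplicit false

/-!
# P181, FL2: from `DomG` to multiplicities, any number of slots, any parity, `M` free
-/

open scoped BigOperators TensorProduct

namespace Vale.Agent.P181.FL2.H858

open Finset MvPolynomial
open Vale.Agent.P181 Vale.Agent.P181.FL Vale.Agent.P181.H280 Vale.Agent.P181.H867
  Vale.Agent.P181.FLAT.H858 Vale.Agent.P181.H445.FL

variable {d q c n : ℕ}

/-- The form is invariant under the permutations which respect the slots. -/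
lemma wv_Slot {F : MultilinearMap ℂ (fun _ : Fin d => MvPolynomial (Fin n) ℂ) ℂ} (hF : IsSymm F)
    (e : Equiv.Perm (Pos d q c)) (he : Slot e) (v : Pos d q c → Fin n) :
    wv F (fun p => v (e p)) = wv F v := by
  rcases isEmpty_or_nonempty (Fin q × Fin c) with h0 | ⟨⟨k0, m0⟩⟩
  · have h1 : IsEmpty (Pos d q c) := ⟨fun p => h0.elim (p.1.2, p.2)⟩
    have h2 : (fun p => v (e p)) = v := by
      funext p
      exact h1.elim p
    rw [h2]
  · have hs0 : ∀ p, (e p).1.1 = (e ((p.1.1, k0), m0)).1.1 := fun p => he p ((p.1.1, k0), m0) rfl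
    have hsurj : Function.Surjective (fun i : Fin d => (e ((i, k0), m0)).1.1) := by
      intro i
      refine ⟨(e.symm ((i, k0), m0)).1.1, ?_⟩
      have h1 := hs0 (e.symm ((i, k0), m0))
      rw [Equiv.apply_symm_apply] at h1
      exact h1.symm
    have hbij : Function.Bijective (fun i : Fin d => (e ((i, k0), m0)).1.1) :=
      Finite.surjective_iff_bijective.1 hsurj
    have h1 := hF (Equiv.ofBijective _ hbij)
      (fun i => ∏ k : Fin q, ∏ t : Fin c, (X (v ((i, k), t)) : MvPolynomial (Fin n) ℂ))
    rw [wv, wv, ← h1]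
    congr 1
    funext i
    rw [slot_prod (fun p => v (e p)) i]
    have h2 := slot_prod v ((Equiv.ofBijective _ hbij) i)
    rw [h2]
    refine prod_bij (fun p _ => e p) ?_ ?_ ?_ ?_
    · intro p hp
      rw [mem_filter] at hp ⊢
      refine ⟨mem_univ _, ?_⟩
      rw [hs0 p, hp.2]
      rfl
    · intro p _ p' _ h
      exact e.injective h
    · intro p hp
      rw [mem_filter] at hp
      refine ⟨e.symm p, ?_, by simp⟩
      rw [mem_filter]
      refine ⟨mem_univ _, ?_⟩
      have h3 := hs0 (e.symm p)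
      rw [Equiv.apply_symm_apply, hp.2] at h3
      exact (hbij.1 h3).symm
    · intro p _
      rfl

/-- The column antisymmetrisations vanish. -/
theorem antisymm_zero2 {M : ℕ} (hD : DomG d q c M)
    {F : MultilinearMap ℂ (fun _ : Fin d => MvPolynomial (Fin n) ℂ) ℂ} (hs : IsSymm F)
    (hF : ∀ G ∈ linS n ^ c, F (fun _ => G ^ q) = 0) {D : ℕ} (ε : Pos d q c ≃ Fin D)
    (κ : Fin D → Fin M) (w : Fin D → Fin n) :
    ∑ σ : {σ : Equiv.Perm (Fin D) // κ ∘ σ = κ}, (Equiv.Perm.sign σ.1 : ℂ) *
      wv F (fun p => (w ∘ σ.1) (ε p)) = 0 := by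
  set x : (Fin D → Fin n) → ℂ := fun u => wv F (fun p => u (ε p)) with hx
  have hk : ∀ cc, kapW x κ w ε cc = 0 := by
    refine hD _ ?_ ?_
    · intro e he cc
      rw [kapW_perm, kapW, mul_sum]
      refine sum_congr rfl fun σ _ => ?_
      rw [mul_ite, mul_zero]
      split_ifs
      · congr 2
        have h1 := wv_Slot hs e he (fun p => w (σ (ε p)))
        simp only [hx, Equiv.symm_apply_apply]
        exact h1
      · rfl
    · intro cc
      have h1 : ∀ g : Equiv.Perm (Fin d × Fin q),
          ((Equiv.Perm.sign (blk c g) : ℤ) : ℂ) * kapW x κ w ε (fun p => cc (blk c g p)) =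
          ∑ σ : Equiv.Perm (Fin D), (if ∀ p, κ (σ (ε p)) = cc p then
            (((Equiv.Perm.sign σ : ℤ) : ℂ) *
              wv F (fun p => w (σ (ε (g p.1, p.2))))) else 0) := by
        intro g
        rw [kapW_perm, mul_sum]
        refine sum_congr rfl fun σ _ => ?_
        rw [mul_ite, mul_zero]
        split_ifs
        · have h4 : ((Equiv.Perm.sign (blk c g) : ℤ) : ℂ) * ((Equiv.Perm.sign (blk c g) : ℤ) : ℂ)
              = 1 := by
            rw [← Int.cast_mul, ← Units.val_mul, Int.units_mul_self, Units.val_one, Int.cast_one]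
          rw [← mul_assoc, h4, one_mul]
          congr 1
          simp only [hx, Equiv.symm_apply_apply]
          rfl
        · rfl
      simp only [h1]
      rw [sum_comm]
      refine sum_eq_zero fun σ _ => ?_
      split_ifs
      · rw [← mul_sum, wv_pow hF (fun p => w (σ (ε p))), mul_zero]
      · exact sum_const_zero
  have h1 := hk (fun p => κ (ε p))
  rw [kapW, ← sum_filter (fun σ : Equiv.Perm (Fin D) => ∀ p, κ (σ (ε p)) = κ (ε p))] at h1
  refine Eq.trans ?_ h1
  refine sum_bij' (fun σ _ => σ.1) (fun σ hσ => ⟨σ, ?_⟩) ?_ ?_ ?_ ?_ ?_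
  · rw [mem_filter] at hσ
    funext j
    have h2 := hσ.2 (ε.symm j)
    rw [Equiv.apply_symm_apply] at h2
    exact h2
  · intro σ _
    rw [mem_filter]
    exact ⟨mem_univ _, fun p => congrFun σ.2 (ε p)⟩
  · intro σ _
    exact mem_univ _
  · intro σ _
    rfl
  · intro σ _
    rfl
  · intro σ _
    rfl

/-- **From `DomG` to the vanishing of the forms.** -/
theorem formsVanish2 {M : ℕ} (hD : DomG d q c M) (lam : Fin n → ℕ) (hlam : ∀ i, lam i ≤ M) :
    FormsVanishG d q c n lam := by
  classical
  intro l hx hpow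
  let ε : Pos d q c ≃ Fin (d * (q * c)) :=
    ((Equiv.prodAssoc (Fin d) (Fin q) (Fin c)).trans
      ((Equiv.refl (Fin d)).prodCongr finProdFinEquiv)).trans finProdFinEquiv
  have hval : ∀ u : Fin (d * (q * c)) → Fin n,
      wf l (fun p => u (finProdFinEquiv p)) = wv (formOf l) (fun p => u (ε p)) := by
    intro u
    rw [wf, wv]
    congr 1
    funext i
    rw [← Equiv.prod_comp finProdFinEquiv, Fintype.prod_prod_type]
    rfl
  have h0 : (fun u : Fin (d * (q * c)) → Fin n => wf l (fun p => u (finProdFinEquiv p))) = 0 := by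
    refine FLAT.H487.words (M := M) _ ?_ ?_
    · intro P hP w
      exact wf_symP finProdFinEquiv lam hlam l hx P hP w
    · intro κ w
      simp only [hval]
      exact antisymm_zero2 hD (formOf_symm l) hpow ε κ w
  have h1 : ∀ w, wf l w = 0 := by
    intro w
    have h2 := congrFun h0 (fun j => w (finProdFinEquiv.symm j))
    simpa using h2
  intro P hP
  apply multilinear_zero_of_span (formOf l)
    (Set.range (fun c' : Fin (q * c) → Fin n => ∏ j, (X (c' j) : MvPolynomial (Fin n) ℂ)))
  · intro w hw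
    choose c' hc' using hw
    rw [← h1 (fun p => c' p.1 p.2), wf]
    congr 1
    funext i
    exact (hc' i).symm
  · intro i
    exact span_pow_eq _ _ (hP i)

/-- **From `DomG` to multiplicities**, any number `d` of slots. -/
theorem flat2 {M : ℕ} (hD : DomG d q c M) (lam : Fin n → ℕ) (hlam : ∀ i, lam i ≤ M) :
    plethMult d (q * c) n lam ≤ plethMult (q * d) c n lam :=
  plethMultG_le_of d q c n lam (formsVanish2 hD lam hlam)

/-- **(FLAT2)** from **(DOM2)**. -/
theorem flat2Stmt (hD : Dom2Stmt) : Flat2Stmt := fun a q M _ lam hq hM hlam =>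
  flat2 (hD a q a M hq hM) lam hlam

end Vale.Agent.P181.FL2.H858
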