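import Vale.Agent.P181.FL2.H858.Asm
import Vale.Agent.P181.FL2.H172.Dom
import Vale.Agent.P181.H777.Tails

set_option autoImplicit false

/-!
# P181, FL2: the final theorems
-/

namespace Vale.Agent.P181.FL2.H858

open Vale.Agent.P181 Vale.Agent.P181.FL Vale.Agent.P181.H280 Vale.Agent.P181.H867

/-- **(FLAT2).** -/
theorem flat2All : Flat2Stmt := flat2Stmt H172.dom2

/-- **(FLAT2), any number `d` of slots**: the power map is injective on the highest weight vectors,
and the inequality of the multiplicities. -/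
theorem flat2N {d q c n M : ℕ} (hq : 1 ≤ q)
    (hM : (M : ℝ) + 8 * (q : ℝ) ^ 2 * Real.log (2 * q * d) ≤ 2 * q * c) (lam : Fin n → ℕ)
    (hlam : ∀ i, lam i ≤ M) :
    (∀ x ∈ hwSpace lam (plethAct d (q * c) n), powMapG d q c (Fin n → ℂ) x = 0 → x = 0) ∧
    plethMult d (q * c) n lam ≤ plethMult (q * d) c n lam :=
  ⟨fun x hx h0 => powMapG_injOn_of d q c n lam
    (formsVanish2 (H172.dom2 d q c M hq hM) lam hlam) x hx h0,
    flat2 (H172.dom2 d q c M hq hM) lam hlam⟩

/-- From `q m` to every `b ≥ q a`, for every `DomG`. -/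
theorem ext_of_DomG {a b q m n M : ℕ} (hD : DomG a q m M) (hma : m ≤ a) (hb : q * a ≤ b)
    (lam : Fin (n + 1) → ℕ) (h1 : ∀ i : Fin n, lam i.succ ≤ q * m)
    (h2 : ∀ i : Fin n, lam i.succ ≤ M) (h0 : lam 0 ≤ a * (b - q * m) + M) :
    plethMult a b (n + 1) lam ≤ plethMult b a (n + 1) lam := by
  by_cases hs : ∑ i, lam i = a * b
  · set α : Fin n → ℕ := fun i => lam i.succ with hα
    have hqm : q * m ≤ b := (Nat.mul_le_mul_left q hma).trans hb
    have hsum : lam 0 + ∑ i, α i = a * b := by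
      rw [← hs, Fin.sum_univ_succ]
    have hpad : ∀ N, N = a * b → lam = H777.pad N α := by
      intro N hN
      funext i
      refine Fin.cases ?_ (fun i => ?_) i
      · rw [H777.pad_zero]
        omega
      · rfl
    have e1 : plethMult a b (n + 1) lam = H777.F a b α := by
      rw [H777.F, ← hpad (a * b) rfl]
    have e2 : plethMult b a (n + 1) lam = H777.F b a α := by
      rw [H777.F, ← hpad (b * a) (Nat.mul_comm b a)]
    rw [e1, e2, H777.F_inner_stab a hqm α h1]
    refine le_trans ?_ ((H777.F_inner_mono (q * a) hma α).trans (H777.F_outer_mono hb a α))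
    rw [H777.F, H777.F]
    have e3 : q * a * m = a * (q * m) := by ring
    rw [e3]
    refine flat2 hD _ ?_
    intro i
    refine Fin.cases ?_ (fun i => ?_) i
    · rw [H777.pad_zero]
      have e4 : a * (b - q * m) + a * (q * m) = a * b := by
        rw [← Nat.mul_add, Nat.sub_add_cancel hqm]
      omega
    · exact h2 i
  · rw [H777.plethMult_eq_zero_of_sum _ _ _ hs]
    exact Nat.zero_le _

/-- **Every `b ≥ q a`**: rows `≥ 2` of length at most `q m`, `m ≤ a`, first row at most
`a (b - q m) + M`, `M ≤ 2 q m - 8 q² ln (2 q a)`. -/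
theorem flat2_ext {a b q m n M : ℕ} (hq : 1 ≤ q) (hma : m ≤ a) (hb : q * a ≤ b)
    (hM : (M : ℝ) + 8 * (q : ℝ) ^ 2 * Real.log (2 * q * a) ≤ 2 * q * m)
    (lam : Fin (n + 1) → ℕ) (h1 : ∀ i : Fin n, lam i.succ ≤ q * m)
    (h2 : ∀ i : Fin n, lam i.succ ≤ M) (h0 : lam 0 ≤ a * (b - q * m) + M) :
    plethMult a b (n + 1) lam ≤ plethMult b a (n + 1) lam :=
  ext_of_DomG (H172.dom2 a q m M hq hM) hma hb lam h1 h2 h0

end Vale.Agent.P181.FL2.H858
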